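import Vale.Agent.P281.H156.MFS.TauP

/-! P281, theorem MFS: one metric with small total curvature (block M-ST). -/

open scoped Manifold ContDiff ComplexOrder Topology
open Complex Set Filter MeasureTheory

set_option linter.all false

noncomputable section

namespace Vale.Agent.P281.H156.MFS

open Vale.Agent.P272.K Vale.Agent.P272.K.AMP Vale.Agent.P299.D Vale.Agent.P299 Vale.Agent.P299.H882
open Vale.Agent.P281.H167.SA Vale.Agent.P281.H167.GM Vale.Agent.P281.H713.KD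
open Vale.Agent.P281.H156.KD
open INT (IsDensity intX IsClosedForm)

variable {n M : ℕ} {X : Type} [TopologicalSpace X] [ChartedSpace (Cm n) X]
  [IsManifold 𝓘(ℂ, Cm n) ω X]
  {w χ θ α G g W : D.FormM n X} {φ : Chart n X → Cm n → ℝ} {m : ℕ} {ρ : X → ℝ}
  {Dv : Fin M → Set X} {r : Fin M → X → ℝ} {R : Fin M → D.FormM n X} {dl : Fin M → ℝ}

/-- the form `curvK + α` -/
def curvM (φ : Chart n X → Cm n → ℝ) (m : ℕ) (ρ : X → ℝ) (δ : ℝ) (dl : Fin M → ℝ)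
    (R : Fin M → D.FormM n X) (α : D.FormM n X) : D.FormM n X :=
  fun e z => curvK φ m ρ δ dl R e z + α e z

/-- the class `clsK + α` -/
def clsM (φ : Chart n X → Cm n → ℝ) (dl : Fin M → ℝ)
    (R : Fin M → D.FormM n X) (α : D.FormM n X) : D.FormM n X :=
  fun e z => clsK φ dl R e z + α e z

def CurvMGe (φ : Chart n X → Cm n → ℝ) (m : ℕ) (ρ : X → ℝ) (dl : Fin M → ℝ)
    (R : Fin M → D.FormM n X) (α : D.FormM n X) (C : ℝ) (χ : D.FormM n X) : Prop :=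
  ∀ δ : ℝ, 0 < δ → ∀ e x, At e x → (curvM φ m ρ δ dl R α e (e x) +
    ((C * (δ / (ρ x + δ)) : ℝ) : ℂ) • χ e (e x)).PosSemidef

def MassPartM : Prop := ∀ (n M : ℕ) (X : Type) [TopologicalSpace X] [T2Space X] [CompactSpace X]
  [ConnectedSpace X] [ChartedSpace (Cm n) X] [IsManifold 𝓘(ℂ, Cm n) ω X]
  (G : D.FormM n X) (_ : IsKahler G) (φ : Chart n X → Cm n → ℝ) (_ : IsCanonicalMetric φ)
  (m : ℕ) (_ : 0 < m) (ρ : X → ℝ) (_ : SmoothFn (n := n) ρ) (_ : ∀ x, 0 ≤ ρ x)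
  (_ : ∃ x, 0 < ρ x) (Dv : Fin M → Set X) (r : Fin M → X → ℝ) (R : Fin M → D.FormM n X)
  (_ : IsBd Dv r R) (dl : Fin M → ℝ) (_ : ∀ i, 0 ≤ dl i ∧ dl i < 1)
  (α : D.FormM n X) (_ : IsClosedForm α) (C : ℝ)
  (_ : CurvMGe φ m ρ dl R α C G) (h : X → ℝ) (_ : IsHolNorm (n := n) h) (_ : ∃ x, 0 < h x)
  (C' : ℝ) (κ : ℝ) (_ : 0 < κ), ∃ (a : ℝ) (β : X → ℝ), 0 < a ∧ Continuous β ∧ (∀ x, 0 ≤ β x) ∧
    (∀ x, h x < a → 1 ≤ β x) ∧ ∃ δ₀ : ℝ, 0 < δ₀ ∧ ∀ δ ε : ℝ, 0 < δ → δ ≤ δ₀ → 0 < ε → ε ≤ δ₀ →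
    ∀ (U : X → ℝ) (c : ℝ), SmoothFn (n := n) U → IsKahler (addH G U) →
      (∀ e x, At e x → Real.log (addH G U e (e x)).det.re = phiK φ m ρ δ dl r ε e (e x) + c) →
      H882.J (addH G U) (fun x => δ / (ρ x + δ) * trX (addH G U) G x) ≤ κ ∧
      (∀ i, H882.J (addH G U) (fun x => ε / (r i x + ε) * trX (addH G U) G x) ≤ κ) ∧
      ∀ i, (∀ x ∈ Dv i, ¬ ∀ᶠ y in 𝓝 x, y ∈ Dv i → h y = 0) →
        H882.J (addH G U) (fun x => β x * (trX (addH G U) (dF (r i) (R i) ε) x +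
          C' * trX (addH G U) G x)) ≤ κ

/-- the output of the Bochner formula -/
def BochOut (Dv : Fin M → Set X) (r : Fin M → X → ℝ) (R : Fin M → D.FormM n X) (χ : D.FormM n X)
    (φ : Chart n X → Cm n → ℝ) (m : ℕ) (ρ : X → ℝ) (dl : Fin M → ℝ) (α W : D.FormM n X) (C : ℝ)
    (μ : ℕ) (K : Fin M → ℕ) (N₀ N₁ : D.FormM n X → X → ℝ) : Prop :=
  ∃ C₂ : ℝ, 0 ≤ C₂ ∧ ∀ a : ℝ, 0 < a →
  ∃ C' : ℝ, 0 ≤ C' ∧ ∀ (β : X → ℝ), Continuous β → (∀ x, 0 ≤ β x) →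
    (∀ x, N₀ χ x + N₁ χ x < a → 1 ≤ β x) → ∀ δ ε : ℝ, 0 < δ → 0 < ε → ε ≤ 1 →
    ∀ (g : D.FormM n X) (c : ℝ), IsKahler g →
      (∀ e x, At e x → Real.log (g e (e x)).det.re = phiK φ m ρ δ dl r ε e (e x) + c) →
      ∀ N : D.FormM n X → X → ℝ, N = N₀ ∨ N = N₁ →
      BochF g (fun x => tauP χ g (curvM φ m ρ δ dl R α) ρ r R C C' C₂ μ K β δ ε x - μ * trX g W x)
        (fun x => N g x * ∏ i, (r i x + ε)⁻¹ ^ K i)

lemma isClosed_curvM (hφ : IsCanonicalMetric φ) (hρ : SmoothFn (n := n) ρ) (h0 : ∀ x, 0 ≤ ρ x)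
    {δ : ℝ} (hδ : 0 < δ) (hR : ∀ i, IsClosedForm (R i)) (hα : IsClosedForm α) :
    IsClosedForm (curvM φ m ρ δ dl R α) :=
  (isClosed_curvK (m := m) (dl := dl) hφ hρ h0 hδ hR).add hα

lemma isClosed_clsM (hφ : IsCanonicalMetric φ) (hR : ∀ i, IsClosedForm (R i))
    (hα : IsClosedForm α) : IsClosedForm (clsM φ dl R α) :=
  (isClosed_clsK (dl := dl) hφ hR).add hα

/-- the class of `curvM` -/
lemma mixX_curvM [T2Space X] [CompactSpace X] (coh : CohPart) (hφ : IsCanonicalMetric φ)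
    (hρ : SmoothFn (n := n) ρ)
    (h0 : ∀ x, 0 ≤ ρ x) {δ : ℝ} (hδ : 0 < δ) (hR : ∀ i, IsClosedForm (R i)) (hα : IsClosedForm α)
    (hG : IsClosedForm G) {U : X → ℝ} (hU : SmoothFn (n := n) U) :
    mixX (addH G U) (curvM φ m ρ δ dl R α) = mixX G (clsM φ dl R α) := by
  rw [← coh n X G (clsM φ dl R α) hG (isClosed_clsM hφ hR hα) U
    (fun x => (m : ℝ)⁻¹ * Real.log (ρ x + δ)) hU (smooth_logR hρ h0 m hδ)]
  refine mixX_congr (fun e x hx => rfl) fun e x hx => ?_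
  have h1 := cHess_phiD (m := m) hφ hρ h0 hδ hx
  have h2 : addH (cF φ) (fun x => (m : ℝ)⁻¹ * Real.log (ρ x + δ)) e (e x) = cHess (φ e) (e x) +
      cHess (fun y => (m : ℝ)⁻¹ * Real.log (ρ (e.symm y) + δ)) (e x) := rfl
  have h3 : addH (clsM φ dl R α) (fun x => (m : ℝ)⁻¹ * Real.log (ρ x + δ)) e (e x) =
      cHess (φ e) (e x) + (∑ i, ((dl i : ℝ) : ℂ) • R i e (e x)) + α e (e x) +
      cHess (fun y => (m : ℝ)⁻¹ * Real.log (ρ (e.symm y) + δ)) (e x) := rfl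
  have h4 : curvM φ m ρ δ dl R α e (e x) = cHess (phiD φ m ρ δ e) (e x) +
      (∑ i, ((dl i : ℝ) : ℂ) • R i e (e x)) + α e (e x) := rfl
  rw [h3, h4, h1, h2]
  abel

omit [IsManifold 𝓘(ℂ, Cm n) ω X] in
lemma CurvMGe.toG {C : ℝ} (h0 : ∀ x, 0 ≤ ρ x) (hC0 : 0 ≤ C) (hC : CurvMGe φ m ρ dl R α C χ)
    (hθ0 : ∀ e x, At e x → (θ e (e x)).PosSemidef) (hα0 : ∀ e x, At e x → (α e (e x)).PosSemidef)
    {s t : ℝ} (hs : 0 ≤ s) (ht : 0 < t) :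
    CurvMGe φ m ρ dl R α (C / t) (addF (addF α s θ) t χ) := by
  intro δ hδ e x hx
  have h1 := hC δ hδ e x hx
  have h2 : 0 ≤ C / t * (δ / (ρ x + δ)) := by
    have := h0 x
    positivity
  have h3 : (addF α s θ e (e x)).PosSemidef := (hα0 e x hx).add (psd_real_smul (hθ0 e x hx) hs)
  have h4 := h1.add (psd_real_smul h3 h2)
  have e1 : curvM φ m ρ δ dl R α e (e x) +
      ((C / t * (δ / (ρ x + δ)) : ℝ) : ℂ) • addF (addF α s θ) t χ e (e x) =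
      curvM φ m ρ δ dl R α e (e x) + ((C * (δ / (ρ x + δ)) : ℝ) : ℂ) • χ e (e x) +
        ((C / t * (δ / (ρ x + δ)) : ℝ) : ℂ) • addF α s θ e (e x) := by
    rw [show addF (addF α s θ) t χ e (e x) = addF α s θ e (e x) + (t : ℂ) • χ e (e x) from rfl,
      smul_add, smul_smul]
    have : ((C / t * (δ / (ρ x + δ)) : ℝ) : ℂ) * (t : ℂ) = ((C * (δ / (ρ x + δ)) : ℝ) : ℂ) := by
      rw [← Complex.ofReal_mul]
      congr 1
      field_simp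
    rw [this]
    abel
  rw [e1]
  exact h4

/-- **one metric with small total curvature** -/
theorem exists_stepM [T2Space X] [CompactSpace X] [ConnectedSpace X] (coh : CohPart) (bd : BdPart)
    (mass : MassPartM)
    (hχ : IsKahler χ) (hφ : IsCanonicalMetric φ) (hm : 0 < m) (hρ : SmoothFn (n := n) ρ)
    (h0 : ∀ x, 0 ≤ ρ x) (hbd : IsBd Dv r R) (hdl : ∀ i, 0 ≤ dl i ∧ dl i < 1) {C : ℝ} (hC0 : 0 ≤ C)
    (hC : CurvMGe φ m ρ dl R α C χ) (hθ : IsClosedForm θ) (hα : IsClosedForm α)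
    (hθ0 : ∀ e x, At e x → (θ e (e x)).PosSemidef) (hα0 : ∀ e x, At e x → (α e (e x)).PosSemidef)
    {p μ : ℕ} {K : Fin M → ℕ} (hK : ∀ i, (K i : ℝ) ≤ μ * dl i)
    {N₀ N₁ : D.FormM n X → X → ℝ} (hN : IsDecPair Dv r χ p μ K N₀ N₁) {u : X → ℝ}
    (hu : ∀ g x, IsKahler g → 0 < N₀ g x → 0 < N₁ g x → u x = Real.log (N₁ g x) - Real.log (N₀ g x))
    (boch : BochOut Dv r R χ φ m ρ dl α W C μ K N₀ N₁) {x₀ : X} (hρ₀ : 0 < ρ x₀) (hx₀ : 0 < N₀ χ x₀) {s t : ℝ} (hs : 0 ≤ s) (ht : 0 < t) {κ : ℝ}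
    (hκ : 0 < κ) :
    ∃ (δ : ℝ) (U τ S S0 : X → ℝ) (c : ℝ), 0 < δ ∧ δ ≤ 1 ∧ SmoothFn (n := n) U ∧
      IsKahler (addH (addF (addF α s θ) t χ) U) ∧
      (∀ e x, At e x → Real.log (addH (addF (addF α s θ) t χ) U e (e x)).det.re =
        φ e (e x) + Lk m ρ δ dl r δ x + c) ∧
      SmoothFn (n := n) S ∧ SmoothFn (n := n) S0 ∧ (∀ x, 0 ≤ S x) ∧ (∀ x, 0 ≤ S0 x) ∧
      (∀ x ∈ {x | 0 < N₀ χ x ∧ 0 < N₁ χ x}, 0 < S x ∧ 0 < S0 x ∧
        u x = Real.log (S x) - Real.log (S0 x)) ∧ Continuous τ ∧ (∀ x, 0 ≤ τ x) ∧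
      BochF (addH (addF (addF α s θ) t χ) U)
        (fun x => τ x - μ * trX (addH (addF (addF α s θ) t χ) U) W x) S ∧
      BochF (addH (addF (addF α s θ) t χ) U)
        (fun x => τ x - μ * trX (addH (addF (addF α s θ) t χ) U) W x) S0 ∧
      H882.J (addH (addF (addF α s θ) t χ) U) τ ≤
        μ * mixX (addF (addF α s θ) t χ) (clsM φ dl R α) + κ := by
  have hG : IsKahler (addF (addF α s θ) t χ) := isKahler_G hχ hθ hα hθ0 hα0 hs ht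
  obtain ⟨hr, ⟨Cb, hCb, hb⟩, -⟩ := bd n M X χ hχ Dv r R hbd
  have hr0 : ∀ i x, 0 ≤ r i x := fun i x => IsBd.nonneg hbd i x
  have hR : ∀ i, IsClosedForm (R i) := hbd.closed
  obtain ⟨C₂, hC₂, hB⟩ := boch
  set C₃ : ℝ := max C₂ Cb with hC₃
  have hC₃0 : 0 ≤ C₃ := hC₂.trans (le_max_left _ _)
  set SK : ℝ := ∑ i, (K i : ℝ) with hSK
  have hSK0 : 0 ≤ SK := Finset.sum_nonneg fun i _ => Nat.cast_nonneg _
  have hμ0 : (0 : ℝ) ≤ μ := Nat.cast_nonneg μ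
  have hti : 0 < t⁻¹ := inv_pos.2 ht
  set A1 : ℝ := μ * C * t⁻¹ + SK with hA1
  have hA10 : 0 ≤ A1 := by positivity
  set κ₁ : ℝ := κ / (2 * (A1 + 1)) with hκ₁
  have hκ₁p : 0 < κ₁ := by positivity
  have hCG := CurvMGe.toG h0 hC0 hC hθ0 hα0 hs ht
  have hh : ∃ x, 0 < N₀ χ x + N₁ χ x := ⟨x₀, add_pos_of_pos_of_nonneg hx₀ (hN.nonneg χ x₀ hχ).2⟩
  obtain ⟨a, b, ha, cb, hb0, hb1, δ₁, hδ₁, H1⟩ := mass n M X _ hG φ hφ m hm ρ hρ h0 ⟨x₀, hρ₀⟩ Dv r R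
    hbd dl hdl α hα (C / t) hCG (fun x => N₀ χ x + N₁ χ x) hN.hol hh (C₃ / t) κ₁ hκ₁p
  obtain ⟨C', hC', hBa⟩ := hB a ha
  set A2 : ℝ := C' * t⁻¹ * M with hA2
  have hA20 : 0 ≤ A2 := by positivity
  set κ₂ : ℝ := κ / (2 * (A2 + 1)) with hκ₂
  have hκ₂p : 0 < κ₂ := by positivity
  obtain ⟨_, _, _, _, _, _, δ₂, hδ₂, H2⟩ := mass n M X _ hG φ hφ m hm ρ hρ h0 ⟨x₀, hρ₀⟩ Dv r R
    hbd dl hdl α hα (C / t) hCG (fun x => N₀ χ x + N₁ χ x) hN.hol hh (C₃ / t) κ₂ hκ₂p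
  set δ : ℝ := min (min δ₁ δ₂) 1 with hδdef
  have hδ : 0 < δ := lt_min (lt_min hδ₁ hδ₂) one_pos
  have hδ1 : δ ≤ 1 := min_le_right _ _
  have hδδ₁ : δ ≤ δ₁ := (min_le_left _ _).trans (min_le_left _ _)
  have hδδ₂ : δ ≤ δ₂ := (min_le_left _ _).trans (min_le_right _ _)
  have hcan := isCanonical_phiK (m := m) (dl := dl) hφ hρ h0 hδ hδ hr hr0
  obtain ⟨U, c, hU, hg, hlg⟩ := exists_yauC H882.yau hG hcan
  obtain ⟨E1, -, E3⟩ := H1 δ δ hδ hδδ₁ hδ hδδ₁ U c hU hg hlg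
  obtain ⟨-, E2, -⟩ := H2 δ δ hδ hδδ₂ hδ hδδ₂ U c hU hg hlg
  have hBB : ∀ N : D.FormM n X → X → ℝ, N = N₀ ∨ N = N₁ →
      BochF (addH (addF (addF α s θ) t χ) U)
        (fun x => tauP χ (addH (addF (addF α s θ) t χ) U) (curvM φ m ρ δ dl R α) ρ r R C C' C₃ μ K
          b δ δ x - μ * trX (addH (addF (addF α s θ) t χ) U) W x)
        (fun x => N (addH (addF (addF α s θ) t χ) U) x * pK r K δ x) := by
    intro N hNN
    have h1 := hBa b cb hb0 hb1 δ δ hδ hδ hδ1 _ c hg hlg N hNN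
    exact BochF.mono h1 fun x => sub_le_sub_right (tauP_mono (C := C) (C' := C') hg.toIsHermitian hχ
      (le_max_left C₂ Cb) hb0 μ K δ δ x) _
  have hd : ∀ i x, (dF (r i) (R i) δ (chartAt (Cm n) x) (chartAt (Cm n) x x) +
      (C₃ : ℂ) • χ (chartAt (Cm n) x) (chartAt (Cm n) x x)).PosSemidef := by
    intro i x
    have hx := at_chartAt (n := n) x
    have h1 := ((hb i _ x hx).2.2 δ hδ hδ1).1
    have h2 : 0 ≤ C₃ - Cb * (δ / (r i x + δ)) := by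
      have h3 : δ / (r i x + δ) ≤ 1 := by
        have := hr0 i x
        rw [div_le_one (by linarith)]; linarith
      have h4 : Cb * (δ / (r i x + δ)) ≤ Cb * 1 := mul_le_mul_of_nonneg_left h3 hCb
      have h5 : Cb ≤ C₃ := le_max_right _ _
      linarith
    have h3 := h1.add (psd_real_smul ((hχ.posDef _ x hx).posSemidef) h2)
    have e1 : dF (r i) (R i) δ (chartAt (Cm n) x) (chartAt (Cm n) x x) +
        ((Cb * (δ / (r i x + δ)) : ℝ) : ℂ) • χ (chartAt (Cm n) x) (chartAt (Cm n) x x) +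
        ((C₃ - Cb * (δ / (r i x + δ)) : ℝ) : ℂ) • χ (chartAt (Cm n) x) (chartAt (Cm n) x x) =
        dF (r i) (R i) δ (chartAt (Cm n) x) (chartAt (Cm n) x x) +
          (C₃ : ℂ) • χ (chartAt (Cm n) x) (chartAt (Cm n) x x) := by
      rw [add_assoc, ← add_smul]
      congr 2
      push_cast
      ring
    rw [← e1]
    exact h3
  obtain ⟨p1, p2, p3, p4, p5⟩ := boch_pair hN hr hr0 hu hg hδ
  have hQ : IsClosedForm (curvM φ m ρ δ dl R α) := isClosed_curvM hφ hρ h0 hδ hR hα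
  have hJ := J_tauP_le hχ hQ hρ h0 hr hr0 hR hθ hα hθ0 hα0 hs ht hδ hδ hU hg
    cb hb0 (C := C) (C' := C') (C₂ := C₃) (κ₁ := κ₁) (κ₂ := κ₂) hC0 hC' hC₃0 μ K E1 E2
    (fun i hi => E3 i (hN.ne i hi))
  refine ⟨δ, U, _, _, _, c, hδ, hδ1, hU, hg, fun e x hx => ?_, p1, p2, p3, p4, p5,
    cont_tauP hg.toIsHermitian hχ hQ hρ h0 hr hr0 hR hδ hδ cb C C' C₃ μ K,
    fun x => tauP_nonneg hg.toIsHermitian hχ hr0 hδ (hC δ hδ _ x (at_chartAt x)) hC'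
      (fun i => hd i x) hb0 μ K,
    hBB N₁ (Or.inr rfl), hBB N₀ (Or.inl rfl), hJ.trans ?_⟩
  · rw [hlg e x hx, phiK_eq, hx.left_inv]
  · have f1 : H882.J (addH (addF (addF α s θ) t χ) U)
        (trX (addH (addF (addF α s θ) t χ) U) (curvM φ m ρ δ dl R α)) =
        mixX (addF (addF α s θ) t χ) (clsM φ dl R α) := by
      rw [J_trX hg.toIsHermitian hQ.form,
        mixX_curvM coh hφ hρ h0 hδ hR hα (INT.IsKahler.isClosedForm hG) hU]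
    rw [f1]
    have g1 : A1 * κ₁ ≤ κ / 2 := by
      rw [hκ₁]
      have : A1 * (κ / (2 * (A1 + 1))) = κ / 2 * (A1 / (A1 + 1)) := by
        field_simp
      rw [this]
      have h3 : A1 / (A1 + 1) ≤ 1 := by
        rw [div_le_one (by positivity)]; linarith
      calc κ / 2 * (A1 / (A1 + 1)) ≤ κ / 2 * 1 := mul_le_mul_of_nonneg_left h3 (by positivity)
        _ = κ / 2 := mul_one _
    have g2 : A2 * κ₂ ≤ κ / 2 := by
      rw [hκ₂]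
      have : A2 * (κ / (2 * (A2 + 1))) = κ / 2 * (A2 / (A2 + 1)) := by
        field_simp
      rw [this]
      have h3 : A2 / (A2 + 1) ≤ 1 := by
        rw [div_le_one (by positivity)]; linarith
      calc κ / 2 * (A2 / (A2 + 1)) ≤ κ / 2 * 1 := mul_le_mul_of_nonneg_left h3 (by positivity)
        _ = κ / 2 := mul_one _
    have g3 : A1 * κ₁ = μ * C * t⁻¹ * κ₁ + SK * κ₁ := by rw [hA1]; ring
    have g4 : A2 * κ₂ = C' * t⁻¹ * (M * κ₂) := by rw [hA2]; ring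
    rw [g3] at g1
    rw [g4] at g2
    linarith


end Vale.Agent.P281.H156.MFS
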